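import Vale.Agent.P322T.Final
import Vale.Agent.P322T.Info

namespace Vale.Agent.Results.P322.EpsUpTo185

open Vale.Agent.P322T.Info

/-- **Theorem (the Courtade-Kumar inequality for `ε ≤ 37/200`).**  For every dimension `n`, every
Boolean function `f` on the cube, balanced or not, and every crossover probability
`0 ≤ ε ≤ 37/200 = 0.185`, we have `I(f(X);Y) ≤ 1 - h₂(ε)`. -/
theorem result (n : ℕ) (f : (Fin n → Bool) → Bool) (ε : ℝ) (h0 : 0 ≤ ε)
    (h1 : ε ≤ 37 / 200) :
    mutualInfo ε f ≤ 1 - h2 ε := by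
  rcases h0.eq_or_lt with rfl | hpos
  · exact ck_zero f
  · have h2ε : 0 < 1 - 2 * ε := by linarith only [h1]
    have hTε : Real.exp (-(- Real.log (1 - 2 * ε))) = 1 - 2 * ε := by
      rw [neg_neg, Real.exp_log h2ε]
    refine ck_of_psi_form f hpos (by linarith only [h1]) hTε ?_
    refine Vale.Agent.P322T.high_CK (by linarith only [h1]) (by linarith only [hpos]) hTε n _ ?_
    intro x
    unfold Vale.Agent.P322.signOf
    cases f x <;> simp

end Vale.Agent.Results.P322.EpsUpTo185
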