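import Vale.Agent.P322T.Final
import Vale.Agent.P322T.Info
import Vale.Agent.P322W.CellRun

namespace Vale.Agent.Results.P322.Full

open Vale.Agent.P322T.Info

/-- **Theorem (the Courtade-Kumar conjecture).**  For every dimension `n`, every Boolean function
`f` on the cube, balanced or not, and every crossover probability `0 ≤ ε ≤ 1/2`, with `X` uniform
on the cube and `Y` the output of `n` independent binary symmetric channels of crossover `ε`, we
have `I(f(X);Y) ≤ 1 - h₂(ε)`. -/
theorem result (n : ℕ) (f : (Fin n → Bool) → Bool) (ε : ℝ) (h0 : 0 ≤ ε) (h1 : ε ≤ 1 / 2) :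
    mutualInfo ε f ≤ 1 - h2 ε := by
  rcases h0.eq_or_lt with rfl | hpos
  · exact ck_zero f
  rcases h1.eq_or_lt with rfl | hlt
  · exact ck_half f
  have h2ε : 0 < 1 - 2 * ε := by linarith only [hlt]
  have hTε : Real.exp (-(- Real.log (1 - 2 * ε))) = 1 - 2 * ε := by
    rw [neg_neg, Real.exp_log h2ε]
  have hF : ∀ x, Vale.Agent.P322.signOf f x = 1 ∨ Vale.Agent.P322.signOf f x = -1 := by
    intro x
    unfold Vale.Agent.P322.signOf
    cases f x <;> simp
  refine ck_of_psi_form f hpos hlt hTε ?_
  rcases le_total (1 - 2 * ε) (16 / 25) with h | h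
  · exact Vale.Agent.P322W.low_CK h2ε h hTε n _ hF
  · exact Vale.Agent.P322T.high_CK (by linarith only [h]) (by linarith only [hpos]) hTε n _ hF

end Vale.Agent.Results.P322.Full
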