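import Vale.Agent.P322V.Cube

namespace Vale.Agent.Results.P322.OneTwentieth

open Real Finset
open Vale.Agent.P322

/-- Transition probability of `n` independent binary symmetric channels with crossover `ε`. -/
noncomputable def channel {n : ℕ} (ε : ℝ) (x y : Fin n → Bool) : ℝ :=
  ∏ i, if x i = y i then 1 - ε else ε

/-- The joint law `P(f(X) = a, Y = y)` when `X` is uniform on the cube. -/
noncomputable def joint {n : ℕ} (ε : ℝ) (f : (Fin n → Bool) → Bool) (a : Bool)
    (y : Fin n → Bool) : ℝ :=
  ∑ x, if f x = a then (1 / 2 ^ n : ℝ) * channel ε x y else 0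

/-- The marginal law `P(f(X) = a)`. -/
noncomputable def marginalF {n : ℕ} (ε : ℝ) (f : (Fin n → Bool) → Bool) (a : Bool) : ℝ :=
  ∑ y, joint ε f a y

/-- The marginal law `P(Y = y)`. -/
noncomputable def marginalY {n : ℕ} (ε : ℝ) (f : (Fin n → Bool) → Bool)
    (y : Fin n → Bool) : ℝ :=
  ∑ a, joint ε f a y

/-- The mutual information `I(f(X);Y)` in bits (with the usual convention `0 log 0 = 0`). -/
noncomputable def mutualInfo {n : ℕ} (ε : ℝ) (f : (Fin n → Bool) → Bool) : ℝ :=
  ∑ a, ∑ y, joint ε f a y * Real.logb 2 (joint ε f a y / (marginalF ε f a * marginalY ε f y))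

/-- The binary entropy in bits. -/
noncomputable def h2 (p : ℝ) : ℝ := -p * Real.logb 2 p - (1 - p) * Real.logb 2 (1 - p)

lemma channel_eq_KK {n : ℕ} {ε T : ℝ} (hT : Real.exp (-T) = 1 - 2 * ε) (x y : Fin n → Bool) :
    KK T x y = channel ε x y := by
  unfold KK channel
  apply Finset.prod_congr rfl
  intro i _
  unfold kk
  rw [hT]
  cases x i <;> cases y i <;> simp <;> ring

lemma channel_nonneg {n : ℕ} {ε : ℝ} (h0 : 0 ≤ ε) (h1 : ε ≤ 1) (x y : Fin n → Bool) :
    0 ≤ channel ε x y := by
  unfold channel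
  apply Finset.prod_nonneg
  intro i _
  split_ifs <;> linarith

lemma channel_sum_left {n : ℕ} (ε : ℝ) (y : Fin n → Bool) : ∑ x, channel ε x y = 1 := by
  unfold channel
  have h := Finset.prod_univ_sum (fun _ : Fin n => (Finset.univ : Finset Bool))
    (fun i b => if b = y i then 1 - ε else ε)
  rw [Fintype.piFinset_univ] at h
  rw [← h]
  apply Finset.prod_eq_one
  intro i _
  rw [Fintype.sum_bool]
  cases y i <;> simp

lemma channel_sum_right {n : ℕ} (ε : ℝ) (x : Fin n → Bool) : ∑ y, channel ε x y = 1 := by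
  unfold channel
  have h := Finset.prod_univ_sum (fun _ : Fin n => (Finset.univ : Finset Bool))
    (fun i b => if x i = b then 1 - ε else ε)
  rw [Fintype.piFinset_univ] at h
  rw [← h]
  apply Finset.prod_eq_one
  intro i _
  rw [Fintype.sum_bool]
  cases x i <;> simp

/-- The conditional probability `P(f(X) = true | Y = y)`. -/
noncomputable def post {n : ℕ} (ε : ℝ) (f : (Fin n → Bool) → Bool) (y : Fin n → Bool) : ℝ :=
  ∑ x, if f x = true then channel ε x y else 0

lemma post_nonneg {n : ℕ} {ε : ℝ} (h0 : 0 ≤ ε) (h1 : ε ≤ 1) (f : (Fin n → Bool) → Bool)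
    (y : Fin n → Bool) : 0 ≤ post ε f y := by
  unfold post
  apply Finset.sum_nonneg
  intro x _
  split_ifs
  · exact channel_nonneg h0 h1 x y
  · exact le_rfl

lemma one_sub_post {n : ℕ} (ε : ℝ) (f : (Fin n → Bool) → Bool) (y : Fin n → Bool) :
    1 - post ε f y = ∑ x, if f x = false then channel ε x y else 0 := by
  unfold post
  rw [← channel_sum_left ε y, ← Finset.sum_sub_distrib]
  apply Finset.sum_congr rfl
  intro x _
  cases f x <;> simp

lemma one_sub_post_nonneg {n : ℕ} {ε : ℝ} (h0 : 0 ≤ ε) (h1 : ε ≤ 1)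
    (f : (Fin n → Bool) → Bool) (y : Fin n → Bool) : 0 ≤ 1 - post ε f y := by
  rw [one_sub_post]
  apply Finset.sum_nonneg
  intro x _
  split_ifs
  · exact channel_nonneg h0 h1 x y
  · exact le_rfl

lemma joint_true {n : ℕ} (ε : ℝ) (f : (Fin n → Bool) → Bool) (y : Fin n → Bool) :
    joint ε f true y = post ε f y * (1 / 2 ^ n) := by
  unfold joint post
  rw [Finset.sum_mul]
  apply Finset.sum_congr rfl
  intro x _
  split_ifs <;> ring

lemma joint_false {n : ℕ} (ε : ℝ) (f : (Fin n → Bool) → Bool) (y : Fin n → Bool) :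
    joint ε f false y = (1 - post ε f y) * (1 / 2 ^ n) := by
  rw [one_sub_post]
  unfold joint
  rw [Finset.sum_mul]
  apply Finset.sum_congr rfl
  intro x _
  split_ifs <;> ring

lemma marginalY_eq {n : ℕ} (ε : ℝ) (f : (Fin n → Bool) → Bool) (y : Fin n → Bool) :
    marginalY ε f y = 1 / 2 ^ n := by
  unfold marginalY
  rw [Fintype.sum_bool, joint_true, joint_false]
  ring

lemma marginalF_true {n : ℕ} (ε : ℝ) (f : (Fin n → Bool) → Bool) :
    marginalF ε f true = avg (post ε f) := by
  unfold marginalF avg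
  simp only [joint_true]
  rw [← Finset.sum_mul]
  ring

lemma marginalF_false {n : ℕ} (ε : ℝ) (f : (Fin n → Bool) → Bool) :
    marginalF ε f false = 1 - avg (post ε f) := by
  unfold marginalF
  simp only [joint_false]
  rw [← Finset.sum_mul]
  have h := avg_sub (fun _ : Fin n → Bool => (1 : ℝ)) (post ε f)
  rw [avg_const] at h
  rw [← h]
  unfold avg
  ring

lemma term_identity {w p : ℝ} (h : p = 0 → w = 0) :
    w * Real.log (w / p) = w * Real.log w - w * Real.log p := by
  by_cases hw : w = 0
  · simp [hw]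
  · have hp : p ≠ 0 := fun hp => hw (h hp)
    rw [Real.log_div hw hp]
    ring

lemma avg_eq_zero_imp {n : ℕ} {g : (Fin n → Bool) → ℝ} (hg : ∀ y, 0 ≤ g y) (h : avg g = 0)
    (y : Fin n → Bool) : g y = 0 := by
  unfold avg at h
  have hne : (2 : ℝ) ^ n ≠ 0 := by positivity
  have h2 : ∑ x, g x = 0 := by
    rcases div_eq_zero_iff.mp h with h3 | h3
    · exact h3
    · exact absurd h3 hne
  exact (Finset.sum_eq_zero_iff_of_nonneg (fun x _ => hg x)).mp h2 y (Finset.mem_univ y)

/-- The mutual information in nats is the entropy of `f(X)` minus the conditional entropy. -/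
lemma mutualInfo_eq {n : ℕ} {ε : ℝ} (h0 : 0 ≤ ε) (h1 : ε ≤ 1) (f : (Fin n → Bool) → Bool) :
    mutualInfo ε f * Real.log 2
      = Real.binEntropy (avg (post ε f)) - avg (fun y => Real.binEntropy (post ε f y)) := by
  set w : (Fin n → Bool) → ℝ := post ε f with hw
  set p : ℝ := avg w with hp
  have hw0 : ∀ y, 0 ≤ w y := post_nonneg h0 h1 f
  have hw1 : ∀ y, 0 ≤ 1 - w y := one_sub_post_nonneg h0 h1 f
  have hpavg : avg (fun y => 1 - w y) = 1 - p := by
    rw [avg_sub, avg_const]
  have hp0 : ∀ y, p = 0 → w y = 0 := fun y h => avg_eq_zero_imp hw0 h y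
  have hp1 : ∀ y, 1 - p = 0 → 1 - w y = 0 := fun y h =>
    avg_eq_zero_imp (g := fun y => 1 - w y) hw1 (by rw [hpavg]; exact h) y
  have hN : (1 / 2 ^ n : ℝ) ≠ 0 := by positivity
  have hlog2 : Real.log 2 ≠ 0 := (Real.log_pos (by norm_num)).ne'
  have htrue : ∀ y, joint ε f true y
      * Real.logb 2 (joint ε f true y / (marginalF ε f true * marginalY ε f y)) * Real.log 2
      = (w y * Real.log (w y) - w y * Real.log p) * (1 / 2 ^ n) := by
    intro y
    rw [joint_true, marginalF_true, marginalY_eq, mul_div_mul_right _ _ hN]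
    rw [mul_assoc, Real.logb, div_mul_cancel₀ _ hlog2, mul_right_comm, term_identity (hp0 y)]
  have hfalse : ∀ y, joint ε f false y
      * Real.logb 2 (joint ε f false y / (marginalF ε f false * marginalY ε f y)) * Real.log 2
      = ((1 - w y) * Real.log (1 - w y) - (1 - w y) * Real.log (1 - p)) * (1 / 2 ^ n) := by
    intro y
    rw [joint_false, marginalF_false, marginalY_eq, mul_div_mul_right _ _ hN]
    rw [mul_assoc, Real.logb, div_mul_cancel₀ _ hlog2, mul_right_comm, term_identity (hp1 y)]
  unfold mutualInfo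
  rw [Fintype.sum_bool, add_mul, Finset.sum_mul, Finset.sum_mul]
  simp only [htrue, hfalse]
  have hbin : ∀ y, Real.binEntropy (w y) = - (w y * Real.log (w y)) - (1 - w y) * Real.log (1 - w y) := by
    intro y
    unfold Real.binEntropy
    rw [Real.log_inv, Real.log_inv]
    ring
  have hbinp : Real.binEntropy p = - (p * Real.log p) - (1 - p) * Real.log (1 - p) := by
    unfold Real.binEntropy
    rw [Real.log_inv, Real.log_inv]
    ring
  rw [hbinp]
  simp only [hbin]
  have e1 : ∑ y, (w y * Real.log (w y) - w y * Real.log p) * (1 / 2 ^ n : ℝ)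
      = avg (fun y => w y * Real.log (w y)) - p * Real.log p := by
    rw [← avg_mul_right, ← avg_sub]
    unfold avg
    rw [← Finset.sum_mul]
    ring
  have e2 : ∑ y, ((1 - w y) * Real.log (1 - w y) - (1 - w y) * Real.log (1 - p)) * (1 / 2 ^ n : ℝ)
      = avg (fun y => (1 - w y) * Real.log (1 - w y)) - (1 - p) * Real.log (1 - p) := by
    rw [← hpavg, ← avg_mul_right, hpavg, ← avg_sub]
    unfold avg
    rw [← Finset.sum_mul]
    ring
  rw [e1, e2]
  have e3 : avg (fun y => - (w y * Real.log (w y)) - (1 - w y) * Real.log (1 - w y))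
      = - avg (fun y => w y * Real.log (w y)) - avg (fun y => (1 - w y) * Real.log (1 - w y)) := by
    have : (fun y => - (w y * Real.log (w y)) - (1 - w y) * Real.log (1 - w y))
        = (fun y => (-1 : ℝ) * (w y * Real.log (w y)) - (1 - w y) * Real.log (1 - w y)) := by
      funext y; ring
    rw [this, avg_sub, avg_mul_left]
    ring
  rw [e3]
  ring

lemma post_eq_UU {n : ℕ} {ε T : ℝ} (hT : Real.exp (-T) = 1 - 2 * ε)
    (f : (Fin n → Bool) → Bool) (y : Fin n → Bool) :
    (1 + UU (signOf f) T y) / 2 = post ε f y := by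
  rw [UU_add_one]
  unfold post
  rw [Finset.sum_div]
  apply Finset.sum_congr rfl
  intro x _
  rw [channel_eq_KK hT]
  unfold signOf
  cases f x <;> simp <;> ring

lemma avg_post_eq {n : ℕ} {ε T : ℝ} (hT : Real.exp (-T) = 1 - 2 * ε)
    (f : (Fin n → Bool) → Bool) : (1 + avg (signOf f)) / 2 = avg (post ε f) := by
  have : post ε f = fun y => (1 / 2 : ℝ) * (1 + UU (signOf f) T y) := by
    funext y
    rw [← post_eq_UU hT f y]
    ring
  rw [this, avg_mul_left, avg_add, avg_const, avg_UU]
  ring

/-- `ath z ≥ z` on `[0,1)`. -/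
lemma le_ath {z : ℝ} (h0 : 0 ≤ z) (h1 : z < 1) : z ≤ Vale.Agent.P322V.ath z := by
  have hd : ∀ w ∈ Set.Ico (0 : ℝ) 1,
      HasDerivAt (fun v => Vale.Agent.P322V.ath v - v) (1 / (1 - w ^ 2) - 1) w := by
    intro w hw
    have hw' : |w| < 1 := by
      rw [abs_lt]
      constructor <;> linarith [hw.1, hw.2]
    exact (Vale.Agent.P322V.hasDerivAt_ath hw').sub (hasDerivAt_id' w)
  have hmono : MonotoneOn (fun v => Vale.Agent.P322V.ath v - v) (Set.Ico (0 : ℝ) 1) := by
    apply monotoneOn_of_deriv_nonneg (convex_Ico 0 1)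
    · exact fun w hw => (hd w hw).continuousAt.continuousWithinAt
    · intro w hw
      rw [interior_Ico] at hw
      exact (hd w ⟨hw.1.le, hw.2⟩).differentiableAt.differentiableWithinAt
    · intro w hw
      rw [interior_Ico] at hw
      rw [(hd w ⟨hw.1.le, hw.2⟩).deriv]
      have hw2 : 0 < 1 - w ^ 2 := by nlinarith [hw.1, hw.2]
      have hw3 : 1 - w ^ 2 ≤ 1 := by nlinarith [sq_nonneg w]
      have : 1 ≤ 1 / (1 - w ^ 2) := by
        rw [le_div_iff₀ hw2]
        linarith
      linarith
  have h := hmono (Set.left_mem_Ico.2 one_pos) ⟨h0, h1⟩ h0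
  have hath0 : Vale.Agent.P322V.ath 0 = 0 := by
    unfold Vale.Agent.P322V.ath
    simp
  simp only [hath0, sub_zero] at h
  linarith

/-- The quadratic upper bound on the entropy: `ψ(m) + m²/2 ≤ log 2`. -/
lemma psi_add_sq_le {m : ℝ} (hm : |m| ≤ 1) : Vale.Agent.P322V.psi m + m ^ 2 / 2 ≤ Real.log 2 := by
  have hpos : ∀ {z : ℝ}, 0 ≤ z → z ≤ 1 → Vale.Agent.P322V.psi z + z ^ 2 / 2 ≤ Real.log 2 := by
    intro z hz0 hz1
    rcases hz1.eq_or_lt with rfl | hz1
    · rw [Vale.Agent.P322V.psi_one]
      have := Real.log_two_gt_d9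
      norm_num
      linarith
    have hd : ∀ w ∈ Set.Ico (0 : ℝ) 1,
        HasDerivAt (fun v => Vale.Agent.P322V.psi v + v ^ 2 / 2)
          (-(Vale.Agent.P322V.ath w) + w) w := by
      intro w hw
      have hw' : |w| < 1 := by
        rw [abs_lt]
        constructor <;> linarith [hw.1, hw.2]
      have h2 : HasDerivAt (fun v : ℝ => v ^ 2 / 2) w w := by
        have := (hasDerivAt_pow 2 w).div_const 2
        simpa using this
      exact (Vale.Agent.P322V.hasDerivAt_psi hw').add h2
    have hanti : AntitoneOn (fun v => Vale.Agent.P322V.psi v + v ^ 2 / 2) (Set.Ico (0 : ℝ) 1) := by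
      apply antitoneOn_of_deriv_nonpos (convex_Ico 0 1)
      · exact fun w hw => (hd w hw).continuousAt.continuousWithinAt
      · intro w hw
        rw [interior_Ico] at hw
        exact (hd w ⟨hw.1.le, hw.2⟩).differentiableAt.differentiableWithinAt
      · intro w hw
        rw [interior_Ico] at hw
        rw [(hd w ⟨hw.1.le, hw.2⟩).deriv]
        have := le_ath hw.1.le hw.2
        linarith
    have h := hanti (Set.left_mem_Ico.2 one_pos) ⟨hz0, hz1⟩ hz0
    simp only [Vale.Agent.P322V.psi_zero] at h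
    norm_num at h
    linarith
  rcases le_total 0 m with h | h
  · exact hpos h (abs_le.1 hm).2
  · have := hpos (z := -m) (by linarith) (by linarith [(abs_le.1 hm).1])
    rw [Vale.Agent.P322V.psi_neg] at this
    have e : (-m) ^ 2 = m ^ 2 := by ring
    rwa [e] at this

/-- `ψ(ρ) ≤ 1/2` for `ρ ≥ 9/10`. -/
lemma psi_rho_le {ρ : ℝ} (h0 : 9 / 10 ≤ ρ) (h1 : ρ ≤ 1) : Vale.Agent.P322V.psi ρ ≤ 1 / 2 := by
  have h := Vale.Agent.P322V.psi_anti (a := 9 / 10) (b := ρ) (by norm_num) h0 h1
  refine h.trans ?_
  have e : Vale.Agent.P322V.psi (9 / 10) = Real.binEntropy (1 / 20) := by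
    unfold Vale.Agent.P322V.psi
    rw [← Real.binEntropy_one_sub]
    norm_num
  rw [e]
  unfold Real.binEntropy
  have e1 : (1 / 20 : ℝ)⁻¹ = 20 := by norm_num
  have e2 : (1 - 1 / 20 : ℝ)⁻¹ = 20 / 19 := by norm_num
  rw [e1, e2]
  have h20 : Real.log 20 ≤ 19 / 4 := by
    have : Real.log 20 = Real.log 4 + Real.log 5 := by
      rw [← Real.log_mul (by norm_num) (by norm_num)]
      norm_num
    have h4 := Real.log_le_sub_one_of_pos (x := 4) (by norm_num)
    have h5 := Real.log_le_sub_one_of_pos (x := 5 / 4) (by norm_num)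
    have h45 : Real.log 5 = Real.log (5 / 4) + Real.log 4 := by
      rw [← Real.log_mul (by norm_num) (by norm_num)]
      norm_num
    have hl4 : Real.log 4 ≤ 2 * (7 / 10) := by
      have : Real.log 4 = 2 * Real.log 2 := by
        rw [show (4 : ℝ) = 2 ^ 2 by norm_num, Real.log_pow]
        norm_num
      have h2 := Real.log_two_lt_d9
      rw [this]
      linarith
    linarith
  have h19 : Real.log (20 / 19) ≤ 1 / 19 := by
    have := Real.log_le_sub_one_of_pos (x := 20 / 19) (by norm_num)
    linarith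
  have h1' : (1 - 1 / 20 : ℝ) = 19 / 20 := by norm_num
  rw [h1']
  nlinarith

/-- **Theorem (the Courtade-Kumar inequality for `ε ≤ 1/20`).**  For every dimension `n`, every
Boolean function `f` on the cube, balanced or not, and every crossover probability
`0 ≤ ε ≤ 1/20`, we have `I(f(X);Y) ≤ 1 - h₂(ε)`. -/
theorem result (n : ℕ) (f : (Fin n → Bool) → Bool) (ε : ℝ) (h0 : 0 ≤ ε)
    (h1 : ε ≤ 1 / 20) :
    mutualInfo ε f ≤ 1 - h2 ε := by
  have hlog2 : 0 < Real.log 2 := Real.log_pos (by norm_num)
  have hε1 : ε ≤ 1 := by linarith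
  have hid := mutualInfo_eq h0 hε1 f
  have hent : Real.binEntropy ε = h2 ε * Real.log 2 := by
    unfold Real.binEntropy h2 Real.logb
    rw [Real.log_inv, Real.log_inv]
    field_simp
    ring
  suffices hs : mutualInfo ε f * Real.log 2 ≤ Real.log 2 - Real.binEntropy ε by
    rw [hent] at hs
    have : mutualInfo ε f * Real.log 2 ≤ (1 - h2 ε) * Real.log 2 := by
      calc mutualInfo ε f * Real.log 2 ≤ Real.log 2 - h2 ε * Real.log 2 := hs
        _ = (1 - h2 ε) * Real.log 2 := by ring
    exact le_of_mul_le_mul_right this hlog2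
  rw [hid]
  rcases h0.eq_or_lt with hzero | hpos
  · -- noiseless channel
    rw [← hzero, Real.binEntropy_zero]
    have hw0 := post_nonneg (le_refl (0 : ℝ)) (zero_le_one) f
    have hw1 := one_sub_post_nonneg (le_refl (0 : ℝ)) (zero_le_one) f
    have h3 : 0 ≤ avg (fun y => Real.binEntropy (post 0 f y)) := by
      unfold avg
      apply div_nonneg _ (by positivity)
      apply Finset.sum_nonneg
      intro y _
      exact Real.binEntropy_nonneg (hw0 y) (by linarith [hw1 y])
    have h4 := Real.binEntropy_le_log_two (p := avg (post 0 f))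
    linarith
  · have h2ε : 0 < 1 - 2 * ε := by linarith
    set T : ℝ := - Real.log (1 - 2 * ε) with hT
    have hTε : Real.exp (-T) = 1 - 2 * ε := by
      rw [hT, neg_neg, Real.exp_log h2ε]
    have hρ0 : (9 : ℝ) / 10 ≤ 1 - 2 * ε := by linarith
    have hρ1 : 1 - 2 * ε < 1 := by linarith
    have hF : ∀ x, signOf f x = 1 ∨ signOf f x = -1 := by
      intro x
      unfold signOf
      cases f x <;> simp
    have hmain := Vale.Agent.P322V.variance_bound hρ0 hρ1 hTε n (signOf f) hF
    -- translate everything to `binEntropy`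
    have hcond : avg (fun y => Vale.Agent.P322V.psi (UU (signOf f) T y))
        = avg (fun y => Real.binEntropy (post ε f y)) := by
      congr 1
      funext y
      unfold Vale.Agent.P322V.psi
      rw [post_eq_UU hTε]
    have hh0 : Vale.Agent.P322V.psi (1 - 2 * ε) = Real.binEntropy ε := by
      unfold Vale.Agent.P322V.psi
      rw [← Real.binEntropy_one_sub]
      congr 1
      ring
    set m : ℝ := avg (signOf f) with hm
    have hmarg : Real.binEntropy (avg (post ε f)) = Vale.Agent.P322V.psi m := by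
      unfold Vale.Agent.P322V.psi
      rw [avg_post_eq hTε]
    have hmabs : |m| ≤ 1 := by
      have hUsum : ∀ x, |signOf f x| ≤ 1 := by
        intro x
        rcases hF x with h | h <;> rw [h] <;> simp
      rw [abs_le]
      constructor
      · have : avg (fun _ : Fin n → Bool => (-1 : ℝ)) ≤ m := by
          unfold avg
          rw [hm]
          unfold avg
          apply div_le_div_of_nonneg_right _ (by positivity)
          apply Finset.sum_le_sum
          intro x _
          exact (abs_le.1 (hUsum x)).1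
        rwa [avg_const] at this
      · have : m ≤ avg (fun _ : Fin n → Bool => (1 : ℝ)) := by
          rw [hm]
          unfold avg
          apply div_le_div_of_nonneg_right _ (by positivity)
          apply Finset.sum_le_sum
          intro x _
          exact (abs_le.1 (hUsum x)).2
        rwa [avg_const] at this
    rw [hcond, hh0] at hmain
    rw [hmarg]
    have hq := psi_add_sq_le hmabs
    have hh1 : Real.binEntropy ε ≤ 1 / 2 := by
      rw [← hh0]
      exact psi_rho_le hρ0 hρ1.le
    have hm2 : 0 ≤ m ^ 2 := sq_nonneg m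
    nlinarith

end Vale.Agent.Results.P322.OneTwentieth
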