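import Vale.Agent.Results.P322.OneTwentieth

namespace Vale.Agent.Results.P322.OneTwentiethVar

open Real Finset
open Vale.Agent.P322 Vale.Agent.Results.P322.OneTwentieth

/-- The conditional entropy `H(f(X) | Y)` in bits (with the usual convention `0 log 0 = 0`). -/
noncomputable def condEntropy {n : ℕ} (ε : ℝ) (f : (Fin n → Bool) → Bool) : ℝ :=
  ∑ a, ∑ y, joint ε f a y * Real.logb 2 (marginalY ε f y / joint ε f a y)

/-- The mean `E f(X)` of `f` in the sign convention `true = 1`, `false = -1`. -/
noncomputable def meanF {n : ℕ} (ε : ℝ) (f : (Fin n → Bool) → Bool) : ℝ :=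
  marginalF ε f true - marginalF ε f false

lemma condEntropy_eq {n : ℕ} (ε : ℝ) (f : (Fin n → Bool) → Bool) :
    condEntropy ε f * Real.log 2 = avg (fun y => Real.binEntropy (post ε f y)) := by
  have hN : (1 / 2 ^ n : ℝ) ≠ 0 := by positivity
  have hlog2 : Real.log 2 ≠ 0 := (Real.log_pos (by norm_num)).ne'
  have hterm : ∀ w : ℝ, (w * (1 / 2 ^ n)) * Real.logb 2 ((1 / 2 ^ n) / (w * (1 / 2 ^ n))) * Real.log 2
      = (-(w * Real.log w)) * (1 / 2 ^ n) := by
    intro w
    rw [mul_assoc, Real.logb, div_mul_cancel₀ _ hlog2]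
    by_cases hw : w = 0
    · simp [hw]
    · have e : ((1 / 2 ^ n : ℝ)) / (w * (1 / 2 ^ n)) = w⁻¹ := by
        field_simp
      rw [e, Real.log_inv]
      ring
  unfold condEntropy
  rw [Fintype.sum_bool, add_mul, Finset.sum_mul, Finset.sum_mul]
  simp only [joint_true, joint_false, marginalY_eq, hterm]
  unfold avg
  rw [← Finset.sum_add_distrib, Finset.sum_div]
  apply Finset.sum_congr rfl
  intro y _
  unfold Real.binEntropy
  rw [Real.log_inv, Real.log_inv]
  field_simp

/-- **Theorem.**  For every dimension `n`, every Boolean function `f` and every crossover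
probability `0 ≤ ε ≤ 1/20`, the conditional entropy of `f(X)` given the noisy vector `Y` satisfies
`H(f(X)|Y) ≥ h₂(ε) (1 - (E f)²)`. -/
theorem result (n : ℕ) (f : (Fin n → Bool) → Bool) (ε : ℝ) (h0 : 0 ≤ ε)
    (h1 : ε ≤ 1 / 20) :
    h2 ε * (1 - (meanF ε f) ^ 2) ≤ condEntropy ε f := by
  have hlog2 : 0 < Real.log 2 := Real.log_pos (by norm_num)
  have hε1 : ε ≤ 1 := by linarith
  have hent : Real.binEntropy ε = h2 ε * Real.log 2 := by
    unfold Real.binEntropy h2 Real.logb
    rw [Real.log_inv, Real.log_inv]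
    field_simp
    ring
  refine le_of_mul_le_mul_right ?_ hlog2
  rw [condEntropy_eq]
  have hmean : meanF ε f = 2 * avg (post ε f) - 1 := by
    unfold meanF
    rw [marginalF_true, marginalF_false]
    ring
  rcases h0.eq_or_lt with hzero | hpos
  · rw [← hzero]
    have hz : h2 0 = 0 := by
      unfold h2
      simp
    rw [hz, zero_mul, zero_mul]
    have hw0 := post_nonneg (le_refl (0 : ℝ)) (zero_le_one) f
    have hw1 := one_sub_post_nonneg (le_refl (0 : ℝ)) (zero_le_one) f
    unfold avg
    apply div_nonneg _ (by positivity)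
    apply Finset.sum_nonneg
    intro y _
    exact Real.binEntropy_nonneg (hw0 y) (by linarith [hw1 y])
  · have h2ε : 0 < 1 - 2 * ε := by linarith
    set T : ℝ := - Real.log (1 - 2 * ε) with hT
    have hTε : Real.exp (-T) = 1 - 2 * ε := by
      rw [hT, neg_neg, Real.exp_log h2ε]
    have hρ0 : (9 : ℝ) / 10 ≤ 1 - 2 * ε := by linarith
    have hρ1 : 1 - 2 * ε < 1 := by linarith
    have hF : ∀ x, signOf f x = 1 ∨ signOf f x = -1 := by
      intro x
      unfold signOf
      cases f x <;> simp
    have hmain := Vale.Agent.P322V.variance_bound hρ0 hρ1 hTε n (signOf f) hF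
    have hcond : avg (fun y => Vale.Agent.P322V.psi (UU (signOf f) T y))
        = avg (fun y => Real.binEntropy (post ε f y)) := by
      congr 1
      funext y
      unfold Vale.Agent.P322V.psi
      rw [post_eq_UU hTε]
    have hh0 : Vale.Agent.P322V.psi (1 - 2 * ε) = Real.binEntropy ε := by
      unfold Vale.Agent.P322V.psi
      rw [← Real.binEntropy_one_sub]
      congr 1
      ring
    rw [hcond, hh0, hent] at hmain
    have hm : avg (signOf f) = 2 * avg (post ε f) - 1 := by
      have := avg_post_eq hTε f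
      linarith
    rw [hm] at hmain
    rw [hmean]
    calc h2 ε * (1 - (2 * avg (post ε f) - 1) ^ 2) * Real.log 2
        = h2 ε * Real.log 2 * (1 - (2 * avg (post ε f) - 1) ^ 2) := by ring
      _ ≤ _ := hmain

end Vale.Agent.Results.P322.OneTwentiethVar
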